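import Vale.Agent.P011Z.Open

/-!
Rational curves through the identity: the definition and the algebraic operations.
-/

open Matrix Topology Polynomial Filter

namespace Vale.Agent.P011Z

variable {n : Type} [Fintype n] [DecidableEq n]

namespace Crv

section ring

variable {R : Type} [CommRing R]

omit [DecidableEq n] in
theorem eval_mul' (P Q : Matrix n n R[X]) (t : R) :
    (P * Q).map (eval t) = P.map (eval t) * Q.map (eval t) :=
  Matrix.map_mul (f := evalRingHom t)

omit [DecidableEq n] in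
theorem coeff_mul' (P Q : Matrix n n R[X]) : (P * Q).map (fun f => f.coeff 1) =
    P.map (eval 0) * Q.map (fun f => f.coeff 1) + P.map (fun f => f.coeff 1) * Q.map (eval 0) := by
  ext i j
  simp [Matrix.mul_apply, mul_coeff_one, coeff_zero_eq_eval_zero, Finset.sum_add_distrib]

omit [Fintype n] [DecidableEq n] in
theorem eval_C' (g : Matrix n n R) (t : R) : (g.map C).map (eval t) = g := by
  ext i j
  simp

omit [Fintype n] [DecidableEq n] in
theorem coeff_C' (g : Matrix n n R) : (g.map C).map (fun f => f.coeff 1) = 0 := by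
  ext i j
  simp

omit [DecidableEq n] in
theorem eval_sandwich (a b : Matrix n n R) (P : Matrix n n R[X]) (t : R) :
    (a.map C * P * b.map C).map (eval t) = a * P.map (eval t) * b := by
  rw [eval_mul', eval_mul', eval_C', eval_C']

omit [DecidableEq n] in
theorem coeff_sandwich (a b : Matrix n n R) (P : Matrix n n R[X]) :
    (a.map C * P * b.map C).map (fun f => f.coeff 1) = a * P.map (fun f => f.coeff 1) * b := by
  rw [coeff_mul', coeff_mul', coeff_C', coeff_C', eval_C', eval_C']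
  simp

end ring

variable (F : Type) [Field F] [CharZero F]

/-- The value of a rational polynomial at a point of `F`. -/
noncomputable def evAt (t : F) : ℚ[X] →+* F := eval₂RingHom (Rat.castHom F) t

theorem evAt_eq (t : F) (p : ℚ[X]) : evAt F t p = (p.map (Rat.castHom F)).eval t :=
  eval₂_eq_eval_map _

theorem evAt_cast (u : ℚ) (p : ℚ[X]) : evAt F (u : F) p = ((p.eval u : ℚ) : F) :=
  eval₂_at_apply (Rat.castHom F) u

theorem evAt_C (t : F) (c : ℚ) : evAt F t (C c) = (c : F) := eval₂_C _ _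

/-- The value of the curve at a point of `F`. -/
noncomputable def val (P : Matrix n n ℚ[X]) (q : ℚ[X]) (t : F) : Matrix n n F :=
  (evAt F t q)⁻¹ • P.map (evAt F t)

omit [Fintype n] [DecidableEq n] in
theorem val_cast (P : Matrix n n ℚ[X]) (q : ℚ[X]) (u : ℚ) :
    val F P q (u : F) = ((q.eval u)⁻¹ • P.map (eval u)).map ((↑) : ℚ → F) := by
  ext i j
  simp [val, evAt_cast]

theorem infinite_ne {q : ℚ[X]} (hq : q.eval 0 = 1) : {t : ℚ | q.eval t ≠ 0}.Infinite := by
  have h0 : q ≠ 0 := by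
    rintro rfl
    simp at hq
  exact (finite_setOfPred_isRoot h0).infinite_compl

omit [DecidableEq n] [CharZero F] in
/-- The coefficients of a polynomial map with infinitely many values in a subspace lie in it. -/
theorem coeff_mem (I : Submodule F (Matrix n n F)) (M : Matrix n n F[X])
    (h : {t : F | M.map (eval t) ∈ I}.Infinite) (k : ℕ) : M.map (fun f => f.coeff k) ∈ I := by
  classical
  refine (Subspace.forall_mem_dualAnnihilator_apply_eq_zero_iff I _).1 fun φ hφ => ?_
  rw [Submodule.mem_dualAnnihilator] at hφ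
  have h1 : ∀ A : Matrix n n F, φ A = ∑ i, ∑ j, φ (Matrix.single i j 1) * A i j := by
    intro A
    conv_lhs => rw [Matrix.matrix_eq_sum_single A]
    simp only [map_sum]
    refine Finset.sum_congr rfl fun i _ => Finset.sum_congr rfl fun j _ => ?_
    rw [mul_comm, ← smul_eq_mul, ← map_smul, Matrix.smul_single, smul_eq_mul, mul_one]
  have h2 : ∑ i, ∑ j, C (φ (Matrix.single i j 1)) * M i j = 0 := by
    refine eq_zero_of_infinite_isRoot _ (h.mono fun t ht => ?_)
    have h3 := hφ _ ht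
    rw [h1] at h3
    simpa [eval_finsetSum] using h3
  have h3 := congrArg (fun f => f.coeff k) h2
  rw [h1]
  simpa using h3

end Crv

namespace Sys

open Crv

variable {S : Sys n}

/-- `P / q` is a rational curve through one with values in `N` and tangent vector `X`. -/
structure Curve (N : Subgroup (S.mon ℚ)) (P : Matrix n n ℚ[X]) (q : ℚ[X]) (X : Matrix n n ℚ) :
    Prop where
  q0 : q.eval 0 = 1
  P0 : P.map (eval 0) = 1
  mem : ∀ t : ℚ, q.eval t ≠ 0 → ∃ g ∈ N, (g : Matrix n n ℚ) = (q.eval t)⁻¹ • P.map (eval t)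
  tan : X = P.map (fun f => f.coeff 1) - q.coeff 1 • (1 : Matrix n n ℚ)

namespace Curve

variable {N N' : Subgroup (S.mon ℚ)} {P P' : Matrix n n ℚ[X]} {q q' : ℚ[X]} {X X' : Matrix n n ℚ}

theorem mono (h : Curve N P q X) (hN : N ≤ N') : Curve N' P q X :=
  ⟨h.q0, h.P0, fun t ht => let ⟨g, hg, e⟩ := h.mem t ht; ⟨g, hN hg, e⟩, h.tan⟩

theorem val_mem (h : Curve N P q X) {F : Type} [Field F] [CharZero F] {t : F}
    (ht : evAt F t q ≠ 0) : val F P q t ∈ S.mon F := by
  rw [mem_mon_iff]
  intro τ hτ i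
  have h1 : ∑ j : Fin τ.1 → n, C (τ.2 j) * ∏ r, P (j r) (i r) = C (τ.2 i) * q ^ τ.1 := by
    refine eq_of_infinite_eval_eq _ _ ((infinite_ne h.q0).mono fun u hu => ?_)
    obtain ⟨g, -, hg⟩ := h.mem u hu
    have h2 := mem_mon_iff.1 g.2 τ hτ i
    have hu' : q.eval u ^ τ.1 ≠ 0 := pow_ne_zero _ hu
    simp only [hg, Matrix.smul_apply, Matrix.map_apply, smul_eq_mul, Finset.prod_mul_distrib,
      Finset.prod_const, Finset.card_univ, Fintype.card_fin, Rat.cast_id, inv_pow] at h2
    simp only [Set.mem_ofPred_eq, eval_finsetSum, eval_mul, eval_C, eval_prod, eval_pow]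
    rw [← h2, Finset.sum_mul]
    refine Finset.sum_congr rfl fun j _ => ?_
    field_simp
  have h2 := congrArg (evAt F t) h1
  have ht' : evAt F t q ^ τ.1 ≠ 0 := pow_ne_zero _ ht
  simp only [map_sum, map_mul, map_prod, map_pow, evAt_C] at h2
  simp only [val, Matrix.smul_apply, Matrix.map_apply, smul_eq_mul, Finset.prod_mul_distrib,
    Finset.prod_const, Finset.card_univ, Fintype.card_fin, inv_pow]
  refine mul_right_cancel₀ ht' ?_
  rw [← h2, Finset.sum_mul]
  refine Finset.sum_congr rfl fun j _ => ?_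
  field_simp

theorem val_zero (h : Curve N P q X) (F : Type) [Field F] [CharZero F] : val F P q 0 = 1 := by
  have h1 := val_cast F P q 0
  rw [Rat.cast_zero, h.q0, h.P0, inv_one, one_smul] at h1
  rw [h1]
  exact Matrix.map_one _ Rat.cast_zero Rat.cast_one

section top

variable {F : Type} [NontriviallyNormedField F] [CharZero F]

theorem _root_.Vale.Agent.P011Z.Crv.strict_evAt (p : ℚ[X]) :
    HasStrictDerivAt (fun t : F => evAt F t p) ((p.coeff 1 : ℚ) : F) 0 := by
  have h1 := (p.map (Rat.castHom F)).hasStrictDerivAt (0 : F)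
  rw [← coeff_zero_eq_eval_zero, coeff_derivative, coeff_map] at h1
  simpa [evAt_eq] using h1

theorem _root_.Vale.Agent.P011Z.Crv.continuous_evAt (p : ℚ[X]) :
    Continuous fun t : F => evAt F t p := by
  simpa only [evAt_eq] using (p.map (Rat.castHom F)).continuous

omit [Fintype n] [DecidableEq n] in
theorem _root_.Vale.Agent.P011Z.Crv.continuousAt_val (P : Matrix n n ℚ[X]) {q : ℚ[X]} {t : F}
    (ht : evAt F t q ≠ 0) : ContinuousAt (val F P q) t := by
  refine ((continuous_evAt q).continuousAt.inv₀ ht).smul (Continuous.continuousAt ?_)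
  exact continuous_pi fun i => continuous_pi fun j => continuous_evAt (P i j)

theorem evAt_zero (h : Curve N P q X) : evAt F 0 q = 1 := by
  have h1 := evAt_cast F 0 q
  rwa [Rat.cast_zero, h.q0, Rat.cast_one] at h1

theorem eventually_ne (h : Curve N P q X) : ∀ᶠ t in 𝓝 (0 : F), evAt F t q ≠ 0 :=
  (continuous_evAt q).continuousAt.eventually_ne (by rw [h.evAt_zero]; exact one_ne_zero)

theorem strict (h : Curve N P q X) :
    HasStrictDerivAt (fun t : F => Matrix.of.symm (val F P q t))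
      (Matrix.of.symm (X.map ((↑) : ℚ → F))) 0 := by
  refine hasStrictDerivAt_pi.2 fun i => hasStrictDerivAt_pi.2 fun j => ?_
  have h0 : evAt F 0 q ≠ 0 := by
    rw [h.evAt_zero]
    exact one_ne_zero
  have h1 := (strict_evAt (F := F) (P i j)).div (strict_evAt q) h0
  have h2 : evAt F 0 (P i j) = (((1 : Matrix n n ℚ) i j : ℚ) : F) := by
    have h3 := evAt_cast F 0 (P i j)
    rw [Rat.cast_zero] at h3
    rw [h3, ← h.P0]
    rfl
  rw [h.evAt_zero, h2] at h1
  refine (h1.congr_deriv ?_).congr_of_eventuallyEq (Eventually.of_forall fun t => ?_)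
  · rw [h.tan]
    simp [mul_comm]
  · simp [val, div_eq_inv_mul]

end top

theorem mem_lie (h : Curve N P q X) : X ∈ S.lie ℚ := by
  refine mem_lie_of_map (Rat.castHom ℝ) ?_
  refine mem_lie_of_hasDerivAt (S := S) (h.strict (F := ℝ)).hasDerivAt (h.val_zero ℝ) ?_
  exact ((h.eventually_ne.mono fun t ht => h.val_mem ht).filter_mono
    nhdsWithin_le_nhds).frequently

theorem mul (h : Curve N P q X) (h' : Curve N P' q' X') : Curve N (P * P') (q * q') (X + X') := by
  refine ⟨by rw [eval_mul, h.q0, h'.q0, mul_one], by rw [eval_mul', h.P0, h'.P0, mul_one],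
    fun t ht => ?_, ?_⟩
  · rw [eval_mul] at ht
    obtain ⟨g, hg, e⟩ := h.mem t (left_ne_zero_of_mul ht)
    obtain ⟨g', hg', e'⟩ := h'.mem t (right_ne_zero_of_mul ht)
    refine ⟨g * g', mul_mem hg hg', ?_⟩
    rw [Submonoid.coe_mul, e, e', eval_mul', eval_mul, smul_mul_smul_comm, mul_inv]
  · rw [coeff_mul', h.P0, h'.P0, mul_coeff_one, coeff_zero_eq_eval_zero, coeff_zero_eq_eval_zero,
      h.q0, h'.q0, h.tan, h'.tan]
    simp only [one_mul, mul_one, add_smul]
    abel

theorem one (N : Subgroup (S.mon ℚ)) : Curve N 1 1 0 := by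
  have h1 : ∀ t : ℚ, (1 : Matrix n n ℚ[X]).map (eval t) = 1 := fun t =>
    Matrix.map_one _ eval_zero eval_one
  refine ⟨eval_one, h1 0, fun t _ => ⟨1, one_mem _, by simp [h1]⟩, ?_⟩
  ext i j
  by_cases hij : i = j <;> simp [hij, coeff_one]

theorem pow (h : Curve N P q X) (k : ℕ) : Curve N (P ^ k) (q ^ k) (k • X) := by
  induction k with
  | zero => simpa using one N
  | succ k ih =>
    rw [pow_succ, pow_succ, succ_nsmul]
    exact ih.mul h

theorem conj (h : Curve N P q X) (g : S.mon ℚ) (hg : ∀ y ∈ N, g * y * g⁻¹ ∈ N') :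
    Curve N' ((g : Matrix n n ℚ).map C * P * ((g⁻¹ : S.mon ℚ) : Matrix n n ℚ).map C) q
      ((g : Matrix n n ℚ) * X * ((g⁻¹ : S.mon ℚ) : Matrix n n ℚ)) := by
  refine ⟨h.q0, by rw [eval_sandwich, h.P0, mul_one, coe_mul_inv], fun t ht => ?_, ?_⟩
  · obtain ⟨y, hy, e⟩ := h.mem t ht
    refine ⟨_, hg y hy, ?_⟩
    rw [Submonoid.coe_mul, Submonoid.coe_mul, e, eval_sandwich, mul_smul_comm, smul_mul_assoc]
  · rw [coeff_sandwich, h.tan, mul_sub, sub_mul, mul_smul_comm, smul_mul_assoc, mul_one,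
      coe_mul_inv]

variable (S) in
/-- The numerator of the inverse curve. -/
noncomputable def invP (P : Matrix n n ℚ[X]) : Matrix n n ℚ[X] :=
  ((S.BF ℚ)⁻¹).map C * Pᵀ * (S.BF ℚ).map C

theorem coe_inv_eq {g : S.mon ℚ} {t c : ℚ} (e : (g : Matrix n n ℚ) = c • P.map (eval t)) :
    ((g⁻¹ : S.mon ℚ) : Matrix n n ℚ) = c • (invP S P).map (eval t) := by
  rw [coe_inv, inv_eq g.2, e, invP, eval_sandwich, transpose_smul, mul_smul_comm, smul_mul_assoc,
    transpose_map]

theorem inv (h : Curve N P q X) : Curve N (invP S P) q (-X) := by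
  have hB : (S.BF ℚ)⁻¹ * S.BF ℚ = 1 := nonsing_inv_mul _ det_BF.isUnit
  refine ⟨h.q0, ?_, fun t ht => ?_, ?_⟩
  · rw [invP, eval_sandwich, transpose_map, h.P0, transpose_one, mul_one, hB]
  · obtain ⟨y, hy, e⟩ := h.mem t ht
    exact ⟨y⁻¹, inv_mem hy, coe_inv_eq e⟩
  · have h1 : Xᵀ * S.BF ℚ = -(S.BF ℚ * X) := eq_neg_of_add_eq_zero_left (skew_of_mem h.mem_lie)
    have h2 : -X = (S.BF ℚ)⁻¹ * Xᵀ * S.BF ℚ := by
      rw [Matrix.mul_assoc, h1, Matrix.mul_neg, ← Matrix.mul_assoc, hB, one_mul]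
    rw [h2, invP, coeff_sandwich, transpose_map, h.tan, transpose_sub, transpose_smul,
      transpose_one, mul_sub, sub_mul, mul_smul_comm, smul_mul_assoc, mul_one, hB]

/-- The commutator of a fixed element with a curve. -/
theorem comm (h : Curve N P q X) (x : S.mon ℚ) (hx : ∀ g ∈ N, x * g * x⁻¹ * g⁻¹ ∈ N') :
    ∃ P' q', Curve N' P' q'
      ((x : Matrix n n ℚ) * X * ((x⁻¹ : S.mon ℚ) : Matrix n n ℚ) - X) := by
  have h1 := ((h.conj (N' := ⊤) x fun _ _ => trivial).mul (h.inv.mono le_top))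
  rw [← sub_eq_add_neg] at h1
  refine ⟨_, _, h1.q0, h1.P0, fun t ht => ?_, h1.tan⟩
  rw [eval_mul] at ht
  obtain ⟨g, hg, e⟩ := h.mem t (left_ne_zero_of_mul ht)
  refine ⟨_, hx g hg, ?_⟩
  rw [Submonoid.coe_mul, Submonoid.coe_mul, Submonoid.coe_mul, coe_inv_eq e, e, eval_mul',
    eval_sandwich, eval_mul, mul_inv, ← smul_mul_smul_comm, mul_smul_comm (eval t q)⁻¹ (x : Matrix n n ℚ),
    smul_mul_assoc]

end Curve

end Sys

end Vale.Agent.P011Z
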