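import Vale.Agent.P011Z.RC.TrNd
import Vale.Agent.P011Z.RC.Curve

/-!
The tangent vectors of the rational curves span the Lie algebra.
-/

open Matrix Polynomial

namespace Vale.Agent.P011Z

variable {n : Type} [Fintype n] [DecidableEq n]

namespace Crv

theorem jet_prod {R ι : Type} [CommRing R] (s : Finset ι) (a : ι → R) (k : ι → ℕ) :
    (∏ i ∈ s, (1 + C (a i) * X) ^ k i).coeff 0 = 1 ∧
      (∏ i ∈ s, (1 + C (a i) * X) ^ k i).coeff 1 = ∑ i ∈ s, a i * k i := by
  classical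
  have h1 : ∀ (b : R) (m : ℕ), ((1 + C b * X) ^ m).coeff 0 = 1 ∧
      ((1 + C b * X) ^ m).coeff 1 = b * m := by
    intro b m
    induction m with
    | zero => simp [coeff_one]
    | succ m ih =>
      rw [pow_succ, mul_coeff_zero, mul_coeff_one, ih.1, ih.2]
      simp [coeff_one, mul_add, add_comm]
  induction s using Finset.induction_on with
  | empty => simp [coeff_one]
  | insert i s hi ih =>
    rw [Finset.prod_insert hi, Finset.sum_insert hi, mul_coeff_zero, mul_coeff_one, ih.1, ih.2,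
      (h1 _ _).1, (h1 _ _).2]
    simp [add_comm]

theorem exists_nat_scale {ι : Type} (s : Finset ι) (f : ι → ℚ) :
    ∃ D e : ℕ, D ≠ 0 ∧ ∃ g : ι → ℕ, ∀ i ∈ s, (g i : ℚ) = D * f i + e := by
  classical
  have h : ∃ D e : ℕ, D ≠ 0 ∧ ∀ i ∈ s, ∃ g : ℕ, (g : ℚ) = D * f i + e := by
    induction s using Finset.induction_on with
    | empty => exact ⟨1, 0, one_ne_zero, by simp⟩
    | insert i s _ ih =>
      obtain ⟨D, e, hD, h⟩ := ih
      refine ⟨D * (f i).den, e * (f i).den + D * (f i).num.natAbs,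
        mul_ne_zero hD (f i).den_ne_zero, fun j hj => ?_⟩
      rcases Finset.mem_insert.1 hj with rfl | hj
      · have h1 : (0 : ℤ) ≤ (f j).num + (f j).num.natAbs := by omega
        obtain ⟨m, hm⟩ := Int.eq_ofNat_of_zero_le h1
        have h2 : ((f j).num : ℚ) + ((f j).num.natAbs : ℚ) = m := by
          simpa only [Int.cast_add, Int.cast_natCast] using congrArg (Int.cast : ℤ → ℚ) hm
        have h3 : f j * (f j).den = (f j).num := Rat.mul_den_eq_num _
        refine ⟨D * m + e * (f j).den, ?_⟩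
        push_cast
        rw [← h2, ← h3]
        ring
      · obtain ⟨g, hg⟩ := h j hj
        refine ⟨g * (f i).den + D * (f i).num.natAbs, ?_⟩
        push_cast
        rw [hg]
        ring
  obtain ⟨D, e, hD, h⟩ := h
  choose! g hg using h
  exact ⟨D, e, hD, g, hg⟩

theorem exists_galois_splits {F : Type} [Field F] [CharZero F] (p : F[X]) :
    ∃ (K : Type) (_ : Field K) (_ : Algebra F K), IsGalois F K ∧ FiniteDimensional F K ∧
      (p.map (algebraMap F K)).Splits :=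
  ⟨p.SplittingField, inferInstance, inferInstance, isGalois_iff.2 ⟨inferInstance, inferInstance⟩,
    inferInstance, SplittingField.splits p⟩

variable {K : Type} [Field K] [Algebra ℚ K] [IsGalois ℚ K]

theorem exists_poly_of_fixed {p : K[X]} (h : ∀ s : K ≃ₐ[ℚ] K, p.map (s : K →+* K) = p) :
    ∃ p₀ : ℚ[X], p₀.map (algebraMap ℚ K) = p := by
  refine (mem_lifts p).1 ((lifts_iff_coeff_lifts p).2 fun k => ?_)
  refine (InfiniteGalois.mem_range_algebraMap_iff_fixed _).2 fun s => ?_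
  have h1 := congrArg (fun f => f.coeff k) (h s)
  simpa using h1

end Crv

namespace Sys

open Crv

variable {S : Sys n} {K : Type} [Field K] [CharZero K] [Algebra ℚ K] [IsGalois ℚ K]
  [FiniteDimensional ℚ K]

/-- The norm of a one parameter group. -/
theorem exists_curve {X : Matrix n n ℚ} (hX : X ∈ S.lie ℚ) {σ : Finset K} {π : K → Matrix n n K}
    (hs : IsSpec (X.map (algebraMap ℚ K)) σ π) (a : K) (φ : K →ₗ[ℚ] ℚ) (e : ℕ) (g : K → ℕ)
    (hg : ∀ μ ∈ σ, (g μ : ℚ) = φ μ + e) : ∃ P q Y, Curve (S := S) ⊤ P q Y ∧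
      Y.map (algebraMap ℚ K) =
        ∑ μ ∈ σ, (∑ s : K ≃ₐ[ℚ] K, s a * algebraMap ℚ K (φ (s⁻¹ μ))) • π μ := by
  classical
  have hXs : ∀ s : K ≃ₐ[ℚ] K, (X.map (algebraMap ℚ K)).map (s : K ≃+* K) =
      X.map (algebraMap ℚ K) := fun s => by
    ext i j
    exact s.commutes _
  have hπ : ∀ (s : K ≃ₐ[ℚ] K) μ, (π μ).map s = π (s μ) := fun s μ =>
    hs.map_eq (s : K ≃+* K) (hXs s) μ
  have hσ : ∀ (s : K ≃ₐ[ℚ] K), ∀ μ ∈ σ, s μ ∈ σ := fun s μ hμ => by
    rw [← hs.ne, ← hπ]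
    intro h0
    refine (hs.ne μ).2 hμ ?_
    ext i j
    exact (map_eq_zero_iff s s.injective).1 (congrFun (congrFun h0 i) j)
  let w : (( K ≃ₐ[ℚ] K) → ℕ) → K[X] := fun k => ∏ s : K ≃ₐ[ℚ] K, (1 + C (s a) * Polynomial.X) ^ k s
  have hw : ∀ (u : K ≃ₐ[ℚ] K) k, (w k).map (u : K →+* K) = w fun s => k (u⁻¹ * s) := by
    intro u k
    simp only [w, Polynomial.map_prod, Polynomial.map_pow, Polynomial.map_add, Polynomial.map_mul,
      Polynomial.map_one, map_C, map_X]
    refine Fintype.prod_equiv (Equiv.mulLeft u) _ _ fun s => ?_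
    simp
  obtain ⟨q, hq⟩ := exists_poly_of_fixed (p := w fun _ => e) fun u => hw u _
  have hP : ∀ i j, ∃ p₀ : ℚ[X], p₀.map (algebraMap ℚ K) =
      ∑ μ ∈ σ, w (fun s => g (s⁻¹ μ)) * C (π μ i j) := by
    intro i j
    refine exists_poly_of_fixed fun u => ?_
    rw [Polynomial.map_sum]
    refine Finset.sum_bij (fun μ _ => u μ) (fun μ hμ => hσ u μ hμ)
      (fun _ _ _ _ h => u.injective h) (fun ν hν => ⟨u⁻¹ ν, hσ _ ν hν, by simp⟩) fun μ _ => ?_
    rw [Polynomial.map_mul, hw, map_C, ← hπ]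
    rfl
  choose P hP using hP
  have hev : ∀ (t : ℚ) (p : ℚ[X]), algebraMap ℚ K (p.eval t) =
      (p.map (algebraMap ℚ K)).eval (algebraMap ℚ K t) := fun t p => by
    rw [eval_map, eval₂_at_apply]
  have hPev : ∀ t : ℚ, ((Matrix.of P).map (eval t)).map (algebraMap ℚ K) =
      ∑ μ ∈ σ, (w fun s => g (s⁻¹ μ)).eval (algebraMap ℚ K t) • π μ := by
    intro t
    ext i j
    simp only [Matrix.map_apply, Matrix.of_apply, hev, hP, eval_finsetSum, eval_mul, eval_C,
      Matrix.sum_apply, Matrix.smul_apply, smul_eq_mul]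
  have hinj := (algebraMap ℚ K).injective
  refine ⟨Matrix.of P, q, _, ⟨?_, ?_, fun t ht => ?_, rfl⟩, ?_⟩
  · refine hinj ?_
    rw [hev, hq, map_zero, map_one, ← coeff_zero_eq_eval_zero]
    exact (jet_prod _ _ _).1
  · refine Matrix.map_injective hinj ?_
    beta_reduce
    rw [hPev, Matrix.map_one _ (map_zero _) (map_one _), ← hs.sum, map_zero]
    refine Finset.sum_congr rfl fun μ _ => ?_
    rw [← coeff_zero_eq_eval_zero, (jet_prod _ _ _).1, one_smul]
  · refine ⟨⟨_, mem_mon_of_map (algebraMap ℚ K) ?_⟩, trivial, rfl⟩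
    have h1 : ((q.eval t)⁻¹ • (Matrix.of P).map (eval t)).map (algebraMap ℚ K) =
        ∑ μ : σ, ((algebraMap ℚ K (q.eval t))⁻¹ *
          (w fun s => g (s⁻¹ μ)).eval (algebraMap ℚ K t)) • π μ := by
      rw [Matrix.map_smul' _ _ _ (map_mul _), hPev, map_inv₀, Finset.smul_sum,
        ← Finset.sum_coe_sort σ]
      simp only [smul_smul]
    rw [h1]
    refine hs.isDec.sum_mem_mon _ fun {b} c hc => ?_
    have h2 := hs.sum_eq_zero_of_rel (map_mem_lie _ hX) hc
    have h3 : ∀ s : K ≃ₐ[ℚ] K, ∑ r, g (s⁻¹ (c r)) = e * b := by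
      intro s
      have h4 : ∑ r, ((g (s⁻¹ (c r)) : ℕ) : ℚ) = e * b := by
        rw [Finset.sum_congr rfl fun r _ => hg _ (hσ s⁻¹ _ (c r).2), Finset.sum_add_distrib,
          ← map_sum, ← map_sum, h2]
        simp [mul_comm]
      exact_mod_cast h4
    have h4 : ∏ r, w (fun s => g (s⁻¹ (c r))) = (w fun _ => e) ^ b := by
      simp only [w]
      rw [Finset.prod_comm, ← Finset.prod_pow]
      refine Finset.prod_congr rfl fun s _ => ?_
      rw [Finset.prod_pow_eq_pow_sum, h3, pow_mul]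
    rw [Finset.prod_mul_distrib, ← eval_prod, h4, eval_pow, ← hq, ← hev, Finset.prod_const,
      Finset.card_univ, Fintype.card_fin, ← mul_pow, inv_mul_cancel₀, one_pow]
    exact (map_ne_zero_iff _ hinj).2 ht
  · have h1 : ((Matrix.of P).map fun f => f.coeff 1).map (algebraMap ℚ K) =
        ∑ μ ∈ σ, (∑ s : K ≃ₐ[ℚ] K, s a * g (s⁻¹ μ)) • π μ := by
      ext i j
      simp only [Matrix.map_apply, Matrix.of_apply, ← coeff_map, hP, finsetSum_coeff, coeff_mul_C,
        Matrix.sum_apply, Matrix.smul_apply, smul_eq_mul, w, (jet_prod _ _ _).2]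
    have h2 : algebraMap ℚ K (q.coeff 1) = ∑ s : K ≃ₐ[ℚ] K, s a * e := by
      rw [← coeff_map, hq]
      exact (jet_prod _ _ _).2
    rw [Matrix.map_sub _ (map_sub _), h1, Matrix.map_smul' _ _ _ (map_mul _), h2,
      Matrix.map_one _ (map_zero _) (map_one _), ← hs.sum, Finset.smul_sum,
      ← Finset.sum_sub_distrib]
    refine Finset.sum_congr rfl fun μ hμ => ?_
    rw [← sub_smul, ← Finset.sum_sub_distrib]
    refine congrArg (· • π μ) (Finset.sum_congr rfl fun s _ => ?_)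
    have h3 := congrArg (algebraMap ℚ K) (hg _ (hσ s⁻¹ μ hμ))
    rw [map_natCast, map_add, map_natCast] at h3
    rw [h3]
    ring

theorem mem_span_of_spec (h : S.NoNil) {X : Matrix n n ℚ} (hX : X ∈ S.lie ℚ) {σ : Finset K}
    {π : K → Matrix n n K} (hs : IsSpec (X.map (algebraMap ℚ K)) σ π) :
    X ∈ Submodule.span ℚ {X | ∃ P q, Curve (S := S) ⊤ P q X} := by
  classical
  have hinj := (algebraMap ℚ K).injective
  have h1 : ∀ (a : K) (φ : K →ₗ[ℚ] ℚ), ∃ Y ∈ Submodule.span ℚ {X | ∃ P q, Curve (S := S) ⊤ P q X},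
      Y.map (algebraMap ℚ K) =
        ∑ μ ∈ σ, (∑ s : K ≃ₐ[ℚ] K, s a * algebraMap ℚ K (φ (s⁻¹ μ))) • π μ := by
    intro a φ
    obtain ⟨D, e, hD, g, hg⟩ := exists_nat_scale σ φ
    obtain ⟨P, q, Y, hc, hY⟩ := exists_curve hX hs a ((D : ℚ) • φ) e g hg
    refine ⟨(D : ℚ)⁻¹ • Y, Submodule.smul_mem _ _ (Submodule.subset_span ⟨P, q, hc⟩), ?_⟩
    rw [Matrix.map_smul' _ _ _ (map_mul _), hY, Finset.smul_sum]
    refine Finset.sum_congr rfl fun μ _ => ?_
    rw [smul_smul, Finset.mul_sum]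
    refine congrArg (· • π μ) (Finset.sum_congr rfl fun s _ => ?_)
    have hD' : (D : K) ≠ 0 := Nat.cast_ne_zero.2 hD
    rw [LinearMap.smul_apply, smul_eq_mul, map_mul, map_inv₀, map_natCast]
    field_simp
  let b := Module.finBasis ℚ K
  choose Y hY hY' using fun i => h1 (b i) (b.coord i)
  have hc : (Fintype.card (K ≃ₐ[ℚ] K) : ℚ) ≠ 0 := Nat.cast_ne_zero.2 Fintype.card_ne_zero
  set Z : Matrix n n ℚ := (Fintype.card (K ≃ₐ[ℚ] K) : ℚ)⁻¹ • ∑ i, Y i with hZ
  have hZs : Z ∈ Submodule.span ℚ {X | ∃ P q, Curve (S := S) ⊤ P q X} :=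
    Submodule.smul_mem _ _ (Submodule.sum_mem _ fun i _ => hY i)
  have hZl : Z ∈ S.lie ℚ :=
    (Submodule.span_le.2 fun _ ⟨_, _, hc⟩ => hc.mem_lie :
      Submodule.span ℚ {X | ∃ P q, Curve (S := S) ⊤ P q X} ≤ S.lie ℚ) hZs
  have h2 : Z.map (algebraMap ℚ K) = ∑ μ ∈ σ, μ • π μ := by
    have h3 : (∑ i, Y i).map (algebraMap ℚ K) = ∑ i, (Y i).map (algebraMap ℚ K) :=
      map_sum (algebraMap ℚ K).mapMatrix _ _
    rw [hZ, Matrix.map_smul' _ _ _ (map_mul _), h3, Finset.sum_congr rfl fun i _ => hY' i,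
      Finset.sum_comm, Finset.smul_sum]
    refine Finset.sum_congr rfl fun μ _ => ?_
    rw [← Finset.sum_smul, smul_smul, Finset.sum_comm]
    have h4 : ∀ s : K ≃ₐ[ℚ] K, ∑ i, s (b i) * algebraMap ℚ K (b.coord i (s⁻¹ μ)) = μ := by
      intro s
      have h5 := congrArg s (b.sum_repr (s⁻¹ μ))
      rw [map_sum] at h5
      refine Eq.trans (Finset.sum_congr rfl fun i _ => ?_) (h5.trans (by simp))
      rw [Algebra.smul_def, map_mul, AlgEquiv.commutes, mul_comm]
      rfl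
    have hc' : (Fintype.card (K ≃ₐ[ℚ] K) : K) ≠ 0 := Nat.cast_ne_zero.2 Fintype.card_ne_zero
    simp only [h4, Finset.sum_const, Finset.card_univ, nsmul_eq_mul, map_inv₀, map_natCast]
    rw [inv_mul_cancel_left₀ hc']
  have h3 := hs.isNilpotent_sub
  rw [← h2, ← Matrix.map_sub _ (map_sub _)] at h3
  have h4 := h _ (sub_mem hX hZl) ((IsNilpotent.map_iff (f := (algebraMap ℚ K).mapMatrix)
    (Matrix.map_injective hinj)).1 h3)
  rwa [sub_eq_zero.1 h4]

theorem span_curves (h : S.NoNil) :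
    S.lie ℚ ≤ Submodule.span ℚ {X | ∃ P q, Curve (S := S) ⊤ P q X} := by
  intro X hX
  obtain ⟨K, _, _, _, _, hK⟩ := exists_galois_splits X.charpoly
  have : CharZero K := charZero_of_injective_algebraMap (algebraMap ℚ K).injective
  obtain ⟨σ, π, hs⟩ := exists_spec_of_splits (X.map (algebraMap ℚ K))
    (by rwa [Matrix.charpoly_map])
  exact mem_span_of_spec h hX hs

theorem span_curves' (h : S.NoNil) (Λ : Subgroup (S.mon ℚ)) [Λ.FiniteIndex] :
    S.lie ℚ ≤ Submodule.span ℚ {X | ∃ P q, Curve Λ P q X} := by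
  refine (span_curves h).trans (Submodule.span_le.2 ?_)
  rintro X ⟨P, q, hc⟩
  have hk : Λ.normalCore.index ≠ 0 := Subgroup.FiniteIndex.index_ne_zero
  have h1 := hc.pow Λ.normalCore.index
  have h2 : Curve Λ (P ^ Λ.normalCore.index) (q ^ Λ.normalCore.index) (Λ.normalCore.index • X) := by
    refine ⟨h1.q0, h1.P0, fun t ht => ?_, h1.tan⟩
    rw [eval_pow] at ht
    obtain ⟨g, -, e⟩ := hc.mem t (ne_zero_pow hk ht)
    refine ⟨g ^ Λ.normalCore.index, Λ.normalCore_le (Λ.normalCore.pow_index_mem g), ?_⟩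
    rw [SubmonoidClass.coe_pow, e, _root_.smul_pow, eval_pow, inv_pow]
    exact congrArg _ (map_pow (evalRingHom t).mapMatrix P _).symm
  have h3 := Submodule.smul_mem (Submodule.span ℚ {X | ∃ P q, Curve Λ P q X})
    ((Λ.normalCore.index : ℚ)⁻¹) (Submodule.subset_span ⟨_, _, h2⟩)
  rwa [← Nat.cast_smul_eq_nsmul ℚ, smul_smul, inv_mul_cancel₀ (Nat.cast_ne_zero.2 hk),
    one_smul] at h3

end Sys

end Vale.Agent.P011Z
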