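import Vale.Agent.P011Z.Defs

/-!
Weak approximation for the rational numbers.
-/

open Topology Filter

namespace Vale.Agent.P011Z

namespace Crv

theorem tendsto_one {F : Type} [NormedField F] [CharZero F] {x : ℚ} (hx : ‖(x : F)‖ < 1) :
    Tendsto (fun k : ℕ => ((1 / (1 + x ^ k) : ℚ) : F)) atTop (𝓝 1) := by
  have h1 := ((tendsto_pow_atTop_nhds_zero_of_norm_lt_one hx).const_add 1).inv₀ (by simp)
  simpa using h1

theorem tendsto_zero {F : Type} [NormedField F] [CharZero F] {x : ℚ} (hx : 1 < ‖(x : F)‖) :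
    Tendsto (fun k : ℕ => ((1 / (1 + x ^ k) : ℚ) : F)) atTop (𝓝 0) := by
  have h0 : (x : F) ≠ 0 := norm_pos_iff.1 (zero_lt_one.trans hx)
  have h2 : ‖(x : F)⁻¹‖ < 1 := by
    rw [norm_inv]
    exact inv_lt_one_of_one_lt₀ hx
  have h3 := tendsto_pow_atTop_nhds_zero_of_norm_lt_one h2
  have h1 := h3.div (h3.add_const 1) (by simp)
  rw [zero_div] at h1
  refine h1.congr fun k => ?_
  have h4 : (x : F)⁻¹ ^ k ≠ 0 := pow_ne_zero _ (inv_ne_zero h0)
  have h5 : (x : F)⁻¹ ^ k + 1 = (x : F)⁻¹ ^ k * (1 + (x : F) ^ k) := by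
    rw [mul_add, mul_one, ← mul_pow, inv_mul_cancel₀ h0, one_pow]
  push_cast
  rw [Pi.div_apply, h5, div_mul_cancel_left₀ h4, one_div]

theorem exists_sep (T : Finset Nat.Primes) (p : Nat.Primes) : ∃ x : ℚ,
    ‖(x : ℚ_[(p : ℕ)])‖ < 1 ∧ 1 < ‖(x : ℝ)‖ ∧ ∀ q ∈ T, q ≠ p → 1 < ‖(x : ℚ_[(q : ℕ)])‖ := by
  classical
  set M : ℕ := ∏ q ∈ T.erase p, (q : ℕ) with hM
  have hM0 : 0 < M := Finset.prod_pos fun q _ => q.2.pos
  have hcop : ∀ {a b : Nat.Primes}, a ≠ b → (a : ℕ).Coprime b := fun {a b} h =>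
    (Nat.coprime_primes a.2 b.2).2 fun e => h (Subtype.ext e)
  refine ⟨((p : ℕ) : ℚ) ^ M / (M : ℚ), ?_, ?_, fun q hq hqp => ?_⟩
  · have h1 : ‖(M : ℚ_[(p : ℕ)])‖ = 1 := Padic.norm_natCast_eq_one_iff.2
      (Nat.Coprime.prod_right fun q hq => hcop (Finset.ne_of_mem_erase hq).symm)
    push_cast
    rw [norm_div, h1, div_one, norm_pow]
    exact pow_lt_one₀ (norm_nonneg _) Padic.norm_p_lt_one hM0.ne'
  · have h1 : (M : ℝ) < ((p : ℕ) : ℝ) ^ M := by exact_mod_cast Nat.lt_pow_self p.2.one_lt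
    have h2 : (0 : ℝ) < M := by exact_mod_cast hM0
    push_cast
    rw [Real.norm_of_nonneg (by positivity), one_lt_div h2]
    exact h1
  · have h1 : ‖((p : ℕ) : ℚ_[(q : ℕ)])‖ = 1 := Padic.norm_natCast_eq_one_iff.2 (hcop hqp)
    have h2 : ‖(M : ℚ_[(q : ℕ)])‖ < 1 := Padic.norm_natCast_lt_one_iff.2
      (Finset.dvd_prod_of_mem (fun q : Nat.Primes => (q : ℕ)) (Finset.mem_erase.2 ⟨hqp, hq⟩))
    have h3 : 0 < ‖(M : ℚ_[(q : ℕ)])‖ := norm_pos_iff.2 (Nat.cast_ne_zero.2 hM0.ne')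
    push_cast
    rw [norm_div, norm_pow, h1, one_pow, one_lt_div h3]
    exact h2

end Crv

open Crv in
/-- Weak approximation for the rational numbers. -/
theorem weak_approx (T : Finset Nat.Primes) :
    DenseRange fun t : ℚ => (((t : ℝ), fun q : T => (t : ℚ_[(q.1 : ℕ)])) :
      ℝ × ((q : T) → ℚ_[(q.1 : ℕ)])) := by
  classical
  let ι : ℚ →+* ℝ × ((q : T) → ℚ_[(q.1 : ℕ)]) :=
    (Rat.castHom ℝ).prod (RingHom.pi fun q : T => Rat.castHom ℚ_[(q.1 : ℕ)])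
  let C := ι.range.topologicalClosure
  have hC : IsClosed (C : Set (ℝ × ((q : T) → ℚ_[(q.1 : ℕ)]))) :=
    ι.range.isClosed_topologicalClosure
  have hι : ∀ t, ι t ∈ C := fun t => ι.range.le_topologicalClosure ⟨t, rfl⟩
  have h1 : ∀ p : T, ((0, Pi.single p 1) : ℝ × ((q : T) → ℚ_[(q.1 : ℕ)])) ∈ C := by
    intro p
    obtain ⟨x, hp, hr, hq⟩ := exists_sep T p.1
    refine hC.mem_of_tendsto (b := atTop) (f := fun k : ℕ => ι (1 / (1 + x ^ k))) ?_
      (Eventually.of_forall fun k => hι _)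
    refine (tendsto_zero hr).prodMk_nhds (tendsto_pi_nhds.2 fun q => ?_)
    by_cases h : q = p
    · subst h
      rw [Pi.single_eq_same]
      exact tendsto_one hp
    · rw [Pi.single_eq_of_ne h]
      exact tendsto_zero (hq q.1 q.2 fun e => h (Subtype.ext e))
  have h2 : ∀ (p : T) (y : ℚ_[(p.1 : ℕ)]),
      ((0, Pi.single p y) : ℝ × ((q : T) → ℚ_[(q.1 : ℕ)])) ∈ C := by
    intro p y
    refine (Padic.denseRange_ratCast (p.1 : ℕ)).induction_on y ?_ fun r => ?_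
    · exact hC.preimage (continuous_const.prodMk (continuous_single p))
    · have h3 := C.mul_mem (hι r) (h1 p)
      have h4 : ι r * (0, Pi.single p 1) = (0, Pi.single p (r : ℚ_[(p.1 : ℕ)])) := by
        refine Prod.ext (mul_zero _) (funext fun q => ?_)
        by_cases h : q = p
        · subst h
          simp only [Prod.snd_mul, Pi.mul_apply, Pi.single_eq_same, mul_one]
          rfl
        · simp [h]
      rwa [h4] at h3
  have h3 : ∀ y : (q : T) → ℚ_[(q.1 : ℕ)], ((0, y) : ℝ × ((q : T) → ℚ_[(q.1 : ℕ)])) ∈ C := by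
    intro y
    have h4 := C.sum_mem (t := Finset.univ) fun p _ => h2 p (y p)
    rwa [← Prod.mk.eta (p := ∑ _, _), Prod.fst_sum, Prod.snd_sum, Finset.sum_const_zero,
      Finset.univ_sum_single] at h4
  have h4 : ∀ x : ℝ, ((x, 0) : ℝ × ((q : T) → ℚ_[(q.1 : ℕ)])) ∈ C := by
    intro x
    refine (Rat.denseRange_cast (𝕜 := ℝ)).induction_on x ?_ fun r => ?_
    · exact hC.preimage (continuous_id.prodMk continuous_const)
    · have h5 := C.sub_mem (hι r) (h3 (ι r).2)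
      have h6 : ι r - (0, (ι r).2) = ((r : ℝ), 0) := Prod.ext (sub_zero _) (sub_self _)
      rwa [h6] at h5
  intro z
  have h5 := C.add_mem (h4 z.1) (h3 z.2)
  rwa [Prod.mk_add_mk, add_zero, zero_add] at h5

end Vale.Agent.P011Z
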