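import Vale.Agent.P011Z.Spec

/-!
Spectral projections over a field in which the characteristic polynomial splits.
-/

open Matrix

namespace Vale.Agent.P011Z

variable {n : Type} [Fintype n] [DecidableEq n] {Ω : Type} [Field Ω]

open Polynomial in
/-- The polynomial form of the spectral decomposition. -/
theorem exists_spec_poly_of_splits (p : Polynomial Ω) (hp : p.Monic) (hs : p.Splits) :
    ∃ (σ : Finset Ω) (e : Ω → Polynomial Ω), (∀ μ ∉ σ, e μ = 0) ∧ p ∣ ∑ μ ∈ σ, e μ - 1 ∧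
      (∀ μ ν, μ ≠ ν → p ∣ e μ * e ν) ∧ ∀ μ, ∃ m : ℕ, p ∣ ((X - C μ) * e μ) ^ m := by
  classical
  set σ := p.roots.toFinset with hσ
  set f : Ω → Polynomial Ω := fun μ => (X - C μ) ^ p.roots.count μ with hf
  have hprod : p = ∏ μ ∈ σ, f μ := by
    conv_lhs => rw [hs.eq_prod_roots_of_monic hp]
    rw [Finset.prod_multiset_map_count]
  have hcop : ∀ μ ν, μ ≠ ν → IsCoprime (f μ) (f ν) := fun μ ν h =>
    (isCoprime_X_sub_C_of_isUnit_sub (sub_ne_zero_of_ne h).isUnit).pow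
  set P : Ω → Polynomial Ω := fun μ => ∏ ν ∈ σ.erase μ, f ν with hP
  have hcP : ∀ μ, IsCoprime (f μ) (P μ) := fun μ =>
    IsCoprime.prod_right fun ν hν => hcop μ ν (Finset.ne_of_mem_erase hν).symm
  choose a b hab using hcP
  have hfP : ∀ μ ∈ σ, f μ * P μ = p := fun μ hμ => by
    rw [hprod, hP]
    exact Finset.mul_prod_erase σ f hμ
  have hdv : ∀ μ ν, ν ∈ σ → μ ≠ ν → f ν ∣ P μ := fun μ ν hν h =>
    Finset.dvd_prod_of_mem f (Finset.mem_erase.2 ⟨h.symm, hν⟩)
  refine ⟨σ, fun μ => if μ ∈ σ then b μ * P μ else 0, fun μ hμ => if_neg hμ, ?_, ?_, ?_⟩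
  · conv_lhs => rw [hprod]
    refine Finset.prod_dvd_of_coprime (fun μ _ ν _ h => hcop μ ν h) fun ν hν => ?_
    rw [← Finset.add_sum_erase σ _ hν, if_pos hν]
    have e1 : b ν * P ν + ∑ μ ∈ σ.erase ν, (if μ ∈ σ then b μ * P μ else 0) - 1 =
        ∑ μ ∈ σ.erase ν, (if μ ∈ σ then b μ * P μ else 0) - a ν * f ν := by
      rw [← hab ν]
      ring
    rw [e1]
    refine dvd_sub (Finset.dvd_sum fun μ hμ => ?_) (dvd_mul_left _ _)
    rw [if_pos (Finset.mem_of_mem_erase hμ)]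
    exact (hdv μ ν hν (Finset.ne_of_mem_erase hμ)).mul_left _
  · intro μ ν h
    by_cases hμ : μ ∈ σ
    · by_cases hν : ν ∈ σ
      · simp only [if_pos hμ, if_pos hν]
        rw [← hfP ν hν]
        exact mul_dvd_mul ((hdv μ ν hν h).mul_left _) (dvd_mul_left _ _)
      · simp [hν]
    · simp [hμ]
  · intro μ
    by_cases hμ : μ ∈ σ
    · refine ⟨p.roots.count μ + 1, ?_⟩
      simp only [if_pos hμ]
      rw [mul_pow]
      refine (hfP μ hμ).symm.dvd.trans (mul_dvd_mul ?_ ?_)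
      · exact pow_dvd_pow _ (Nat.le_succ _)
      · exact (dvd_mul_left _ _).trans (dvd_pow_self _ (Nat.succ_ne_zero _))
    · exact ⟨1, by simp [hμ]⟩

theorem exists_spec_of_splits (Y : Matrix n n Ω) (hY : Y.charpoly.Splits) :
    ∃ σ π, IsSpec Y σ π := by
  classical
  obtain ⟨σ, e, h0, h1, h2, h3⟩ := exists_spec_poly_of_splits Y.charpoly Y.charpoly_monic hY
  have hz : ∀ q, Y.charpoly ∣ q → Polynomial.aeval Y q = 0 := by
    rintro q ⟨c, rfl⟩
    rw [map_mul, Matrix.aeval_self_charpoly, zero_mul]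
  have hs : ∑ μ ∈ σ, Polynomial.aeval Y (e μ) = 1 := by
    have h := hz _ h1
    rw [map_sub, map_sum, map_one] at h
    exact sub_eq_zero.1 h
  have ho : ∀ μ ν, μ ≠ ν → Polynomial.aeval Y (e μ) * Polynomial.aeval Y (e ν) = 0 :=
    fun μ ν h => by rw [← map_mul, hz _ (h2 μ ν h)]
  refine ⟨σ.filter fun μ => Polynomial.aeval Y (e μ) ≠ 0, fun μ => Polynomial.aeval Y (e μ),
    ?_, ?_, ho, ?_, ?_, ?_⟩
  · rw [Finset.sum_filter_ne_zero, hs]
  · intro μ
    by_cases hμ : μ ∈ σ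
    · conv_rhs => rw [← mul_one (Polynomial.aeval Y (e μ)), ← hs, Finset.mul_sum]
      rw [Finset.sum_eq_single μ (fun ν _ hν => ho μ ν hν.symm) (fun h => (h hμ).elim)]
    · simp [h0 μ hμ]
  · intro μ
    rw [Finset.mem_filter]
    refine ⟨fun h => ⟨?_, h⟩, fun h => h.2⟩
    by_contra hμ
    exact h (by simp [h0 μ hμ])
  · intro μ y hy
    induction e μ using Polynomial.induction_on' with
    | add p q hp hq =>
      rw [map_add]
      exact hp.add_left hq
    | monomial k c =>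
      rw [Polynomial.aeval_monomial]
      exact Commute.mul_left (Algebra.commutes c y) (hy.pow_left k)
  · intro μ
    obtain ⟨m, hm⟩ := h3 μ
    refine ⟨m, ?_⟩
    have h := hz _ hm
    rw [map_pow, map_mul, map_sub, Polynomial.aeval_X, Polynomial.aeval_C,
      Algebra.algebraMap_eq_smul_one] at h
    exact h

namespace IsSpec

variable {Y : Matrix n n Ω} {σ : Finset Ω} {π : Ω → Matrix n n Ω} {S : Sys n}

theorem isDec (h : IsSpec Y σ π) : IsDec fun μ : σ => π μ :=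
  ⟨by rw [Finset.sum_coe_sort σ π, h.sum], fun μ => h.idem μ,
    fun μ ν hμ => h.orth μ ν fun e => hμ (Subtype.ext e)⟩

theorem sum_eq_zero_of_rel (h : IsSpec Y σ π) (hY : Y ∈ S.lie Ω) {a : ℕ} {c : Fin a → σ}
    (hc : S.Rel (fun μ : σ => π μ) c) : ∑ r, (c r : Ω) = 0 := by
  obtain ⟨t, ht, x, hx⟩ := hc
  by_contra h0
  exact hx (h.ev_eq_zero_of_lie hY ht (fun r => (c r : Ω)) h0 x)

theorem trace_mul (h : IsSpec Y σ π) (μ : Ω) : (Y * π μ).trace = μ * (π μ).trace := by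
  have h1 := (Matrix.isNilpotent_trace_of_isNilpotent (h.nil μ)).eq_zero
  rw [sub_mul, trace_sub, smul_mul_assoc, one_mul, trace_smul, smul_eq_mul, sub_eq_zero] at h1
  exact h1

end IsSpec

namespace Sys

variable {S : Sys n}

theorem trNd_of_noNil (h : S.NoNil) : S.TrNd ℚ := by
  intro X hX hXo
  obtain ⟨σ, π, hs⟩ := exists_spec (X.map (Rat.castHom ℂ))
  have hXc := map_mem_lie (Rat.castHom ℂ) hX
  have hY : ∑ μ : σ, (starRingEnd ℂ μ) • π μ ∈ S.lie ℂ := by
    refine hs.isDec.sum_mem_lie _ fun c hc => ?_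
    rw [← map_sum, hs.sum_eq_zero_of_rel hXc hc, map_zero]
  have h1 : ∀ Y ∈ S.lie ℂ, (X.map (Rat.castHom ℂ) * Y).trace = 0 := by
    intro Y hY
    rw [lie_eq_span (Rat.castHom ℂ)] at hY
    induction hY using Submodule.span_induction with
    | mem Y hY =>
      obtain ⟨Z, hZ, rfl⟩ := hY
      rw [← Matrix.map_mul, ← AddMonoidHom.map_trace, hXo Z hZ, map_zero]
    | zero => simp
    | add Y Z _ _ hY hZ => rw [mul_add, trace_add, hY, hZ, add_zero]
    | smul c Y _ hY => rw [mul_smul_comm, trace_smul, hY, smul_zero]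
  have h2 := h1 _ hY
  choose m hm hm0 using hs.trace_nat
  rw [Finset.mul_sum, trace_sum] at h2
  have h3 : ∑ μ : σ, ((Complex.normSq μ * m μ : ℝ) : ℂ) = 0 := by
    refine Eq.trans (Finset.sum_congr rfl fun μ _ => ?_) h2
    rw [mul_smul_comm, trace_smul, hs.trace_mul, hm, smul_eq_mul, ← mul_assoc,
      ← Complex.normSq_eq_conj_mul_self]
    push_cast
    rfl
  rw [← Complex.ofReal_sum, Complex.ofReal_eq_zero,
    Finset.sum_eq_zero_iff_of_nonneg fun μ _ =>
      mul_nonneg (Complex.normSq_nonneg _) (Nat.cast_nonneg _)] at h3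
  have h4 : ∑ μ ∈ σ, μ • π μ = 0 := by
    refine Finset.sum_eq_zero fun μ hμ => ?_
    have h5 : Complex.normSq μ * m μ = 0 := h3 ⟨μ, hμ⟩ (Finset.mem_univ _)
    have h6 : (m μ : ℝ) ≠ 0 := Nat.cast_ne_zero.2 (hm0 μ hμ).ne'
    rw [Complex.normSq_eq_zero.1 ((mul_eq_zero.1 h5).resolve_right h6), zero_smul]
  have h5 := hs.isNilpotent_sub
  rw [h4, sub_zero] at h5
  refine h X hX ?_
  exact (IsNilpotent.map_iff (f := (Rat.castHom ℂ).mapMatrix)
    (Matrix.map_injective (Rat.castHom ℂ).injective)).1 h5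

end Sys

end Vale.Agent.P011Z
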